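-- RD-BASE 435f2ddab3933155552ce6cf4beecd5946780115
import Vale.Agent.P028.MathlibUsed
import Vale.Agent.P028.RD.H472.L6
attribute [-instance] ProperSMul.toContinuousSMul IsTopologicalTorsor.toContinuousSMul IdemSemiring.toCanonicallyOrderedAdd IdemSemiring.toMulLeftMono IdemSemiring.toMulRightMono AddQuantale.instAddLeftMono AddQuantale.instAddRightMono Quantale.instMulLeftMono Quantale.instMulRightMono FiniteDimensional.rclike_to_real IsScalarTower.complexToReal FiniteDimensional.complexToReal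

/-!
# Sums over the scales `κ_m = κ_0 ^ (2 ^ m)` and over the stages
-/

namespace Vale.P028.SK

open Finset CF

/-- the scales -/
noncomputable def kapm (k : ℝ) (m : ℕ) : ℝ := k ^ (2 ^ m)

theorem kapm_zero (k : ℝ) : kapm k 0 = k := by
  unfold kapm
  rw [pow_zero, pow_one]

theorem kapm_succ (k : ℝ) (m : ℕ) : kapm k (m + 1) = kapm k m ^ 2 := by
  unfold kapm
  rw [← pow_mul, pow_succ]

theorem kapm_add (k : ℝ) (m j : ℕ) : kapm k (m + j) = kapm k m ^ (2 ^ j) := by
  unfold kapm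
  rw [← pow_mul, ← pow_add]

theorem le_kapm {k : ℝ} (hk : 1 ≤ k) (m : ℕ) : k ≤ kapm k m := by
  unfold kapm
  calc k = k ^ 1 := (pow_one k).symm
    _ ≤ k ^ (2 ^ m) := pow_le_pow_right₀ hk Nat.one_le_two_pow

theorem kapm_pos {k : ℝ} (hk : 1 ≤ k) (m : ℕ) : 0 < kapm k m :=
  lt_of_lt_of_le (by linarith) (le_kapm hk m)

theorem one_le_kapm {k : ℝ} (hk : 1 ≤ k) (m : ℕ) : 1 ≤ kapm k m := hk.trans (le_kapm hk m)

theorem kapm_mono {k : ℝ} (hk : 1 ≤ k) {m m' : ℕ} (h : m ≤ m') : kapm k m ≤ kapm k m' := by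
  unfold kapm
  exact pow_le_pow_right₀ hk (Nat.pow_le_pow_right (by norm_num) h)

/-- every bounded quantity `K ≥ k` has a scale -/
theorem exists_kapm {k : ℝ} (hk : 2 ≤ k) (B : ℝ) : ∃ M : ℕ, ∀ K : ℝ, k ≤ K → K ≤ B →
    ∃ m < M, kapm k m ≤ K ∧ K < kapm k m ^ 2 := by
  obtain ⟨n, hn⟩ := pow_unbounded_of_one_lt B (by linarith : (1 : ℝ) < k)
  have hn' : B < kapm k n := by
    refine lt_of_lt_of_le hn ?_
    unfold kapm
    exact pow_le_pow_right₀ (by linarith) Nat.lt_two_pow_self.le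
  refine ⟨n, fun K hK hKB => ?_⟩
  classical
  have hex : ∃ m, K < kapm k (m + 1) := ⟨n, lt_of_le_of_lt hKB
    (lt_of_lt_of_le hn' (kapm_mono (by linarith) (Nat.le_succ n)))⟩
  set m := Nat.find hex with hm
  have h1 : K < kapm k (m + 1) := Nat.find_spec hex
  have h2 : kapm k m ≤ K := by
    rcases Nat.eq_zero_or_pos m with h0 | h0
    · rw [h0, kapm_zero]
      exact hK
    · obtain ⟨j, hj⟩ := Nat.exists_eq_succ_of_ne_zero h0.ne'
      have h3 : ¬ K < kapm k (j + 1) := Nat.find_min hex (by omega)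
      rw [hj]
      exact not_lt.1 h3
  refine ⟨m, ?_, h2, by rwa [kapm_succ] at h1⟩
  by_contra hcon
  have h3 : kapm k n ≤ kapm k m := kapm_mono (by linarith) (not_lt.1 hcon)
  linarith

/-- the constant of the sums over the scales -/
noncomputable def cks (c : ℝ) : ℝ := 1 / (1 - (2 : ℝ) ^ (-c))

theorem cks_pos {c : ℝ} (hc : 0 < c) : 0 < cks c := by
  have h1 : (2 : ℝ) ^ (-c) < 1 := Real.rpow_lt_one_of_one_lt_of_neg (by norm_num) (by linarith)
  exact div_pos one_pos (by linarith)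

/-- the sum over all the scales -/
theorem sum_kapm_all {k c : ℝ} (hk : 2 ≤ k) (hc : 0 < c) (M : ℕ) :
    ∑ m ∈ range M, kapm k m ^ (-c) ≤ cks c * k ^ (-c) := by
  set x : ℝ := k ^ (-c) with hx
  have hk0 : 0 < k := by linarith
  have hx0 : 0 < x := Real.rpow_pos_of_pos hk0 _
  have hx2 : x ≤ (2 : ℝ) ^ (-c) :=
    Real.rpow_le_rpow_of_nonpos (by norm_num) hk (by linarith)
  have h1 : (2 : ℝ) ^ (-c) < 1 := Real.rpow_lt_one_of_one_lt_of_neg (by norm_num) (by linarith)
  have e : ∀ m, kapm k m ^ (-c) = x ^ (2 ^ m) := by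
    intro m
    unfold kapm
    rw [hx, ← Real.rpow_natCast, ← Real.rpow_natCast, ← Real.rpow_mul hk0.le,
      ← Real.rpow_mul hk0.le]
    congr 1
    ring
  have h2 : ∀ m ∈ range M, kapm k m ^ (-c) ≤ x * x ^ m := by
    intro m _
    rw [e m, ← pow_succ']
    refine pow_le_pow_of_le_one hx0.le (by linarith) ?_
    exact Nat.succ_le_of_lt Nat.lt_two_pow_self
  refine (sum_le_sum h2).trans ?_
  rw [← mul_sum, mul_comm]
  refine mul_le_mul_of_nonneg_right ?_ hx0.le
  have h3 := (summable_geometric_of_lt_one hx0.le (by linarith)).sum_le_tsum (range M)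
    fun m _ => pow_nonneg hx0.le m
  rw [tsum_geometric_of_lt_one hx0.le (by linarith)] at h3
  refine h3.trans ?_
  unfold cks
  rw [← one_div]
  exact one_div_le_one_div_of_le (by linarith) (by linarith)

open Classical in
/-- **(1) the sum over the scales `≥ A`** -/
theorem sum_kapm {k c A : ℝ} (hk : 2 ≤ k) (hc : 0 < c) (hA : 0 < A) (M : ℕ) :
    ∑ m ∈ (range M).filter (fun m => A ≤ kapm k m), kapm k m ^ (-c) ≤ cks c * A ^ (-c) := by
  have hk1 : 1 ≤ k := by linarith
  rcases ((range M).filter (fun m => A ≤ kapm k m)).eq_empty_or_nonempty with h | h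
  · rw [h, sum_empty]
    exact mul_nonneg (cks_pos hc).le (Real.rpow_nonneg hA.le _)
  · set m₀ := ((range M).filter (fun m => A ≤ kapm k m)).min' h with hm₀
    obtain ⟨h1, h2⟩ := mem_filter.1 (min'_mem _ h)
    have h3 : ∑ m ∈ (range M).filter (fun m => A ≤ kapm k m), kapm k m ^ (-c) ≤
        ∑ j ∈ range M, kapm (kapm k m₀) j ^ (-c) := by
      have e : ∀ j, kapm (kapm k m₀) j = kapm k (m₀ + j) := fun j => by
        rw [kapm_add]
        rfl
      simp only [e]
      have h4 : ∑ j ∈ range M, kapm k (m₀ + j) ^ (-c) =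
          ∑ m ∈ (range M).image (fun j => m₀ + j), kapm k m ^ (-c) := by
        rw [sum_image (fun a _ b _ hab => by simpa using hab)]
      rw [h4]
      refine sum_le_sum_of_subset_of_nonneg (fun m hm => ?_) fun m _ _ =>
        Real.rpow_nonneg (kapm_pos hk1 m).le _
      have h5 : m₀ ≤ m := min'_le _ _ hm
      have h6 := mem_range.1 (mem_filter.1 hm).1
      exact mem_image.2 ⟨m - m₀, mem_range.2 (by omega), by omega⟩
    refine h3.trans ((sum_kapm_all (hk.trans (le_kapm hk1 m₀)) hc M).trans ?_)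
    exact mul_le_mul_of_nonneg_left (Real.rpow_le_rpow_of_nonpos hA h2 (by linarith))
      (cks_pos hc).le

/-! ### Sums over the stages -/

variable {g : Cfg}

/-- small powers of `1 / z` are summable over the stages -/
theorem sum_z_negK (hJ : JsOK g.K g.Js) (hX : g.Js ≤ g.X) (hC2 : 2 ≤ g.K.C2) {a : ℝ}
    (ha : 0 < a) : ∑ i ∈ Icc 1 (nst g), (z g i : ℝ) ^ (-a) ≤ 2 / a := by
  have h1 : ∑ i ∈ Icc 1 (nst g), (z g i : ℝ) ^ (-a) ≤
      ∑ i ∈ Icc 1 (nst g), a⁻¹ * (Real.log (z g i))⁻¹ := by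
    refine sum_le_sum fun i hi => ?_
    obtain ⟨h2, h3⟩ := mem_Icc.1 hi
    have h4 := log_z_geom hJ hX hC2 h2 h3
    have h5 : (0 : ℝ) < Real.log (z g i) := lt_of_lt_of_le (by positivity) h4
    have hz : (0 : ℝ) < z g i := by exact_mod_cast one_le_z g i
    rw [← mul_inv, Real.rpow_neg hz.le]
    refine inv_anti₀ (by positivity) ?_
    have h6 := Real.add_one_le_exp (a * Real.log (z g i))
    have h7 : Real.exp (a * Real.log (z g i)) = (z g i : ℝ) ^ a := by
      rw [Real.rpow_def_of_pos hz, mul_comm]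
    rw [h7] at h6
    linarith
  refine h1.trans ?_
  rw [← mul_sum]
  calc a⁻¹ * ∑ i ∈ Icc 1 (nst g), (Real.log (z g i))⁻¹ ≤ a⁻¹ * 2 :=
        mul_le_mul_of_nonneg_left (sum_inv_log_z hJ hX hC2) (by positivity)
    _ = 2 / a := by rw [div_eq_mul_inv, mul_comm]

/-- small powers of `1 / log z` are summable over the stages -/
theorem sum_log_neg (hJ : JsOK g.K g.Js) (hX : g.Js ≤ g.X) (hC2 : 2 ≤ g.K.C2) {a : ℝ}
    (ha : 0 < a) : ∑ i ∈ Icc 1 (nst g), (Real.log (z g i)) ^ (-a) ≤ cks a := by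
  have h0 : (2 : ℝ) ^ (-a) < 1 := Real.rpow_lt_one_of_one_lt_of_neg (by norm_num) (by linarith)
  have h00 : 0 < (2 : ℝ) ^ (-a) := by positivity
  have h1 : ∑ i ∈ Icc 1 (nst g), (Real.log (z g i)) ^ (-a) ≤
      ∑ i ∈ Icc 1 (nst g), ((2 : ℝ) ^ (-a)) ^ (nst g - i) := by
    refine sum_le_sum fun i hi => ?_
    obtain ⟨h2, h3⟩ := mem_Icc.1 hi
    have h4 := log_z_geom hJ hX hC2 h2 h3
    have h5 := Real.rpow_le_rpow_of_nonpos (by positivity : (0 : ℝ) < 2 ^ (nst g - i)) h4
      (by linarith : -a ≤ 0)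
    refine h5.trans (le_of_eq ?_)
    rw [← Real.rpow_natCast, ← Real.rpow_natCast, ← Real.rpow_mul (by norm_num),
      ← Real.rpow_mul (by norm_num)]
    congr 1
    ring
  refine h1.trans ?_
  have h2 : ∑ i ∈ Icc 1 (nst g), ((2 : ℝ) ^ (-a)) ^ (nst g - i) ≤
      ∑ j ∈ range (nst g), ((2 : ℝ) ^ (-a)) ^ j := by
    have h3 : ∑ i ∈ Icc 1 (nst g), ((2 : ℝ) ^ (-a)) ^ (nst g - i) =
        ∑ j ∈ (Icc 1 (nst g)).image (fun i => nst g - i), ((2 : ℝ) ^ (-a)) ^ j := by
      rw [sum_image]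
      intro x hx y hy hxy
      have := mem_Icc.1 hx
      have := mem_Icc.1 hy
      simp only at hxy
      omega
    rw [h3]
    refine sum_le_sum_of_subset_of_nonneg (fun j hj => ?_) fun j _ _ => pow_nonneg h00.le _
    obtain ⟨i, hi, rfl⟩ := mem_image.1 hj
    have := mem_Icc.1 hi
    exact mem_range.2 (by omega)
  refine h2.trans ?_
  have h3 := (summable_geometric_of_lt_one h00.le h0).sum_le_tsum (range (nst g))
    fun m _ => pow_nonneg h00.le m
  rw [tsum_geometric_of_lt_one h00.le h0, ← one_div] at h3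
  exact h3

open Classical in
/-- **(2) inner stages**: `z_i ≤ κ_m ^ 4` -/
theorem sum_stage_kapm (hJ : JsOK g.K g.Js) (hX : g.Js ≤ g.X) (hC2 : 2 ≤ g.K.C2) {k c : ℝ}
    (hk : 2 ≤ k) (hc : 0 < c) (M : ℕ) :
    ∑ i ∈ Icc 1 (nst g), ∑ m ∈ (range M).filter (fun m => (z g i : ℝ) ≤ kapm k m ^ 4),
      kapm k m ^ (-c) ≤ cks c * (8 / c) := by
  have h1 : ∀ i ∈ Icc 1 (nst g),
      ∑ m ∈ (range M).filter (fun m => (z g i : ℝ) ≤ kapm k m ^ 4), kapm k m ^ (-c) ≤
        cks c * (z g i : ℝ) ^ (-(c / 4)) := by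
    intro i _
    have hz : (0 : ℝ) < z g i := by exact_mod_cast one_le_z g i
    have hzp : 0 < (z g i : ℝ) ^ (1 / 4 : ℝ) := Real.rpow_pos_of_pos hz _
    have h2 := sum_kapm hk hc hzp M
    have e : ((z g i : ℝ) ^ (1 / 4 : ℝ)) ^ (-c) = (z g i : ℝ) ^ (-(c / 4)) := by
      rw [← Real.rpow_mul hz.le]
      congr 1
      ring
    rw [e] at h2
    refine le_trans (sum_le_sum_of_subset_of_nonneg (fun m hm => ?_) fun m _ _ =>
      Real.rpow_nonneg (kapm_pos (by linarith) m).le _) h2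
    obtain ⟨h3, h4⟩ := mem_filter.1 hm
    refine mem_filter.2 ⟨h3, ?_⟩
    have hkp := kapm_pos (k := k) (by linarith) m
    calc (z g i : ℝ) ^ (1 / 4 : ℝ) ≤ (kapm k m ^ 4) ^ (1 / 4 : ℝ) :=
          Real.rpow_le_rpow hz.le h4 (by norm_num)
      _ = kapm k m := by
          rw [← Real.rpow_natCast, ← Real.rpow_mul hkp.le]
          norm_num
  refine (sum_le_sum h1).trans ?_
  rw [← mul_sum]
  refine mul_le_mul_of_nonneg_left ?_ (cks_pos hc).le
  refine (sum_z_negK hJ hX hC2 (by positivity : 0 < c / 4)).trans (le_of_eq ?_)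
  field_simp
  norm_num

open Classical in
/-- **(3) the switching stages**: `log z_s ≤ (κ_m ^ 2) ^ c4` -/
theorem sum_log_kapm (hJ : JsOK g.K g.Js) (hX : g.Js ≤ g.X) (hC2 : 2 ≤ g.K.C2) {k c b : ℝ}
    (hk : 2 ≤ k) (hc : 0 < c) (hb : 0 < b) (M : ℕ) :
    ∑ s ∈ Icc 1 (nst g), ∑ m ∈ (range M).filter (fun m =>
      Real.log (z g s) ≤ (kapm k m ^ 2) ^ b), kapm k m ^ (-c) ≤
      cks c * cks (c / (2 * b)) := by
  have h1 : ∀ s ∈ Icc 1 (nst g),
      ∑ m ∈ (range M).filter (fun m => Real.log (z g s) ≤ (kapm k m ^ 2) ^ b),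
        kapm k m ^ (-c) ≤ cks c * (Real.log (z g s)) ^ (-(c / (2 * b))) := by
    intro s hs
    obtain ⟨s1, s2⟩ := mem_Icc.1 hs
    have hz : (0 : ℝ) < Real.log (z g s) :=
      lt_of_lt_of_le (by positivity) (log_z_geom hJ hX hC2 s1 s2)
    have hzp : 0 < (Real.log (z g s)) ^ (1 / (2 * b)) := Real.rpow_pos_of_pos hz _
    have h2 := sum_kapm hk hc hzp M
    have e : ((Real.log (z g s)) ^ (1 / (2 * b))) ^ (-c) =
        (Real.log (z g s)) ^ (-(c / (2 * b))) := by
      rw [← Real.rpow_mul hz.le]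
      congr 1
      ring
    rw [e] at h2
    refine le_trans (sum_le_sum_of_subset_of_nonneg (fun m hm => ?_) fun m _ _ =>
      Real.rpow_nonneg (kapm_pos (by linarith) m).le _) h2
    obtain ⟨h3, h4⟩ := mem_filter.1 hm
    refine mem_filter.2 ⟨h3, ?_⟩
    have hkp := kapm_pos (k := k) (by linarith) m
    calc (Real.log (z g s)) ^ (1 / (2 * b)) ≤ ((kapm k m ^ 2) ^ b) ^ (1 / (2 * b)) :=
          Real.rpow_le_rpow hz.le h4 (by positivity)
      _ = kapm k m := by
          rw [← Real.rpow_natCast, ← Real.rpow_mul hkp.le, ← Real.rpow_mul hkp.le]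
          have : ((2 : ℕ) : ℝ) * b * (1 / (2 * b)) = 1 := by
            push_cast
            field_simp
          rw [this, Real.rpow_one]
  refine (sum_le_sum h1).trans ?_
  rw [← mul_sum]
  exact mul_le_mul_of_nonneg_left (sum_log_neg hJ hX hC2 (by positivity)) (cks_pos hc).le

/-! ### Small factors against a power of `κ` -/

/-- `exp (A (log κ) ^ θ) (1 + log κ) ^ B ≤ C κ ^ c` for `θ < 1` -/
theorem exp_log_le (A B θ c : ℝ) (hA : 0 ≤ A) (hB : 0 ≤ B) (hθ : 0 ≤ θ) (hθ1 : θ < 1)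
    (hc : 0 < c) : ∃ C ≥ 1, ∀ κ : ℝ, 1 ≤ κ →
    Real.exp (A * (Real.log κ) ^ θ) * (1 + Real.log κ) ^ B ≤ C * κ ^ c := by
  -- `A x ^ θ ≤ C₁ + (c / 2) x` and `B log (1 + x) ≤ C₂ + (c / 2) x`
  have key1 : ∃ C₁ ≥ 0, ∀ x : ℝ, 0 ≤ x → A * x ^ θ ≤ C₁ + c / 2 * x := by
    -- Young
    set R : ℝ := (2 * A / c) ^ (1 / (1 - θ)) with hR
    have hR0 : 0 ≤ R := Real.rpow_nonneg (by positivity) _
    refine ⟨A * R ^ θ, mul_nonneg hA (Real.rpow_nonneg hR0 _), fun x hx => ?_⟩
    rcases le_total x R with h | h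
    · have h1 : A * x ^ θ ≤ A * R ^ θ :=
        mul_le_mul_of_nonneg_left (Real.rpow_le_rpow hx h hθ) hA
      have h2 : 0 ≤ c / 2 * x := by positivity
      linarith
    · have h1 : A * x ^ θ ≤ c / 2 * x := by
        rcases hx.eq_or_lt with h0 | h0
        · rw [← h0] at h ⊢
          have hR' : R = 0 := le_antisymm h hR0
          have hA0 : A = 0 := by
            by_contra hne
            have : 0 < R := Real.rpow_pos_of_pos (by positivity) _
            linarith
          rw [hA0]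
          simp
        · have h2 : 2 * A / c ≤ x ^ (1 - θ) := by
            calc 2 * A / c = ((2 * A / c) ^ (1 / (1 - θ))) ^ (1 - θ) := by
                  rw [← Real.rpow_mul (by positivity)]
                  have : 1 / (1 - θ) * (1 - θ) = 1 := by
                    have : (1 - θ) ≠ 0 := by linarith
                    field_simp
                  rw [this, Real.rpow_one]
              _ ≤ x ^ (1 - θ) := Real.rpow_le_rpow hR0 h (by linarith)
          have h3 : x = x ^ θ * x ^ (1 - θ) := by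
            rw [← Real.rpow_add h0]
            simp
          have h4 : 0 ≤ x ^ θ := Real.rpow_nonneg hx _
          have h5 : A ≤ c / 2 * x ^ (1 - θ) := by
            rw [div_le_iff₀ hc] at h2
            linarith
          calc A * x ^ θ ≤ c / 2 * x ^ (1 - θ) * x ^ θ := mul_le_mul_of_nonneg_right h5 h4
            _ = c / 2 * (x ^ θ * x ^ (1 - θ)) := by ring
            _ = c / 2 * x := by rw [← h3]
      have h2 : 0 ≤ A * R ^ θ := mul_nonneg hA (Real.rpow_nonneg hR0 _)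
      linarith
  have key2 : ∃ C₂ ≥ 0, ∀ x : ℝ, 0 ≤ x → B * Real.log (1 + x) ≤ C₂ + c / 2 * x := by
    rcases hB.eq_or_lt with h0 | h0
    · refine ⟨0, le_rfl, fun x hx => ?_⟩
      rw [← h0]
      have : 0 ≤ c / 2 * x := by positivity
      linarith
    · -- `log (1 + x) ≤ (1 + x) ε - 1 - log ε`
      set ε : ℝ := c / (2 * B) with hε
      have hε0 : 0 < ε := by positivity
      refine ⟨B * |ε - 1 - Real.log ε|, mul_nonneg hB (abs_nonneg _), fun x hx => ?_⟩
      have h1 := Real.add_one_le_exp (Real.log ε + Real.log (1 + x))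
      have h2 : Real.exp (Real.log ε + Real.log (1 + x)) = ε * (1 + x) := by
        rw [Real.exp_add, Real.exp_log hε0, Real.exp_log (by linarith)]
      rw [h2] at h1
      have h3 := le_abs_self (ε - 1 - Real.log ε)
      have h4 : Real.log (1 + x) ≤ |ε - 1 - Real.log ε| + ε * x := by linarith
      calc B * Real.log (1 + x) ≤ B * (|ε - 1 - Real.log ε| + ε * x) :=
            mul_le_mul_of_nonneg_left h4 hB
        _ = B * |ε - 1 - Real.log ε| + c / 2 * x := by
            rw [mul_add, hε]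
            field_simp
  obtain ⟨C₁, hC₁, k1⟩ := key1
  obtain ⟨C₂, hC₂, k2⟩ := key2
  refine ⟨Real.exp (C₁ + C₂), Real.one_le_exp (by positivity), fun κ hκ => ?_⟩
  have hx : 0 ≤ Real.log κ := Real.log_nonneg hκ
  have e1 : (1 + Real.log κ) ^ B = Real.exp (B * Real.log (1 + Real.log κ)) := by
    rw [Real.rpow_def_of_pos (by linarith), mul_comm]
  have e2 : κ ^ c = Real.exp (c * Real.log κ) := by
    rw [Real.rpow_def_of_pos (by linarith), mul_comm]
  rw [e1, e2, ← Real.exp_add, ← Real.exp_add, Real.exp_le_exp]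
  have h1 := k1 (Real.log κ) hx
  have h2 := k2 (Real.log κ) hx
  linarith

end Vale.P028.SK
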